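import Vale.Agent.P181.DG0.Tr
import Vale.Agent.P181.SZR2.Col
import Vale.Agent.P181.SZR2.Count
import Vale.Agent.P181.SZR3.Col
import Vale.Agent.P181.SZR4.Few

set_option autoImplicit false

/-!
# P181, DG: linear substitutions of columns
-/

open MvPolynomial

namespace Vale.Agent.P181.DG6.H887

open Vale.Agent.P181.T4 (HW rowOp rowOp_apply mem_HW)
open Vale.Agent.P181.SZ (PK)
open Vale.Agent.P181.SZR2 (wh_aeval weight_fintype wh_X pos cf zz)
open Vale.Agent.P181.SZR3 (rowD rowD_X rowD_eq)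
open Vale.Agent.P181.SZR4 (vm ren_mem_HW vm_injective coeff_ren)
open Vale.Agent.P181.DG

section gen

variable {m : ℕ} {σ τ : Type}

/-- A substitution which is compatible with two derivations on the variables. -/
lemma der_comm {I J : Type} (φ : MvPolynomial I ℂ →ₐ[ℂ] MvPolynomial J ℂ)
    (D : Derivation ℂ (MvPolynomial I ℂ) (MvPolynomial I ℂ))
    (D' : Derivation ℂ (MvPolynomial J ℂ) (MvPolynomial J ℂ))
    (h : ∀ p, D' (φ (X p)) = φ (D (X p))) (f : MvPolynomial I ℂ) : D' (φ f) = φ (D f) := by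
  induction f using MvPolynomial.induction_on with
  | C a =>
    have h1 : φ (C a) = C a := φ.commutes a
    rw [h1]
    have h2 : D' (C a) = 0 := D'.map_algebraMap a
    have h3 : D (C a) = 0 := D.map_algebraMap a
    rw [h2, h3, map_zero]
  | add f g hf hg => rw [map_add, map_add, map_add, map_add, hf, hg]
  | mul_X f p hf =>
    rw [map_mul, Derivation.leibniz, Derivation.leibniz, hf, h p, map_add]
    simp only [smul_eq_mul, map_mul]

/-- The linear substitution `X (i, j) ↦ ∑ c, A j c X (i, c)`. -/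
noncomputable def lsub (m : ℕ) {σ τ : Type} [Fintype τ] (A : σ → τ → ℂ) :
    MvPolynomial (Fin m × σ) ℂ →ₐ[ℂ] MvPolynomial (Fin m × τ) ℂ :=
  aeval (fun p => ∑ c, C (A p.2 c) * X (p.1, c))

lemma lsub_X [Fintype τ] (A : σ → τ → ℂ) (p : Fin m × σ) :
    lsub m A (X p) = ∑ c, C (A p.2 c) * X (p.1, c) := aeval_X _ _

lemma rowOp_lsub [Fintype σ] [Fintype τ] (A : σ → τ → ℂ) (s i : Fin m)
    (f : MvPolynomial (Fin m × σ) ℂ) : rowOp s i (lsub m A f) = lsub m A (rowOp s i f) := by
  rw [← rowD_eq, ← rowD_eq]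
  apply der_comm
  rintro ⟨k, j⟩
  rw [lsub_X, map_sum, rowD_X]
  by_cases hk : k = i
  · rw [if_pos hk, lsub_X]
    refine Finset.sum_congr rfl fun c _ => ?_
    rw [Derivation.leibniz, rowD_X, if_pos hk]
    have h2 : (rowD s i : Derivation ℂ (MvPolynomial (Fin m × τ) ℂ) _) (C (A j c)) = 0 :=
      Derivation.map_algebraMap _ _
    rw [h2, smul_zero, add_zero, smul_eq_mul]
  · rw [if_neg hk, map_zero]
    refine Finset.sum_eq_zero fun c _ => ?_
    rw [Derivation.leibniz, rowD_X, if_neg hk]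
    have h2 : (rowD s i : Derivation ℂ (MvPolynomial (Fin m × τ) ℂ) _) (C (A j c)) = 0 :=
      Derivation.map_algebraMap _ _
    rw [h2, smul_zero, smul_zero, add_zero]

lemma weight_row [Fintype σ] (i : Fin m) (v : Fin m × σ →₀ ℕ) :
    Finsupp.weight (fun p : Fin m × σ => if p.1 = i then 1 else 0) v = ∑ j, v (i, j) := by
  classical
  rw [weight_fintype, Fintype.sum_prod_type, Finset.sum_eq_single i]
  · simp
  · intro k _ hk
    simp [hk]
  · intro h
    exact absurd (Finset.mem_univ _) h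

lemma weight_col [Fintype σ] (K : σ → Prop) [DecidablePred K] (v : Fin m × σ →₀ ℕ) :
    Finsupp.weight (fun p : Fin m × σ => if K p.2 then 1 else 0) v =
      ∑ j, if K j then ∑ i, v (i, j) else 0 := by
  classical
  rw [weight_fintype, Fintype.sum_prod_type, Finset.sum_comm]
  refine Finset.sum_congr rfl fun j _ => ?_
  by_cases hj : K j
  · simp [hj]
  · simp [hj]

/-- Total degree in a set of columns. -/
lemma lsub_deg [Fintype σ] [Fintype τ] (A : σ → τ → ℂ) (K : σ → Prop) (K' : τ → Prop)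
    [DecidablePred K] [DecidablePred K'] (hA : ∀ j c, A j c ≠ 0 → (K' c ↔ K j)) {n : ℕ}
    {f : MvPolynomial (Fin m × σ) ℂ}
    (hf : ∀ v, coeff v f ≠ 0 → (∑ j, if K j then ∑ i, v (i, j) else 0) = n) :
    ∀ v, coeff v (lsub m A f) ≠ 0 → (∑ c, if K' c then ∑ i, v (i, c) else 0) = n := by
  classical
  intro v hv
  rw [← weight_col]
  refine wh_aeval (fun p : Fin m × τ => if K' p.2 then 1 else 0)
    (fun p : Fin m × σ => if K p.2 then 1 else 0) _ ?_ ?_ hv
  · intro p
    refine IsWeightedHomogeneous.sum _ _ _ fun c _ => ?_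
    by_cases hc : A p.2 c = 0
    · rw [hc, C_0, zero_mul]
      exact isWeightedHomogeneous_zero _ _ _
    · have h1 := (wh_X (fun p : Fin m × τ => if K' p.2 then 1 else 0) (p.1, c)
        (n := if K p.2 then 1 else 0) (by
          simp only [hA p.2 c hc]))
      exact h1.C_mul _
  · intro v hv
    rw [weight_col]
    exact hf v hv

lemma lsub_mem_HW [Fintype σ] [Fintype τ] (A : σ → τ → ℂ) {mu : Fin m → ℕ}
    {f : MvPolynomial (Fin m × σ) ℂ} (hf : f ∈ HW m σ mu) : lsub m A f ∈ HW m τ mu := by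
  classical
  rw [mem_HW] at hf ⊢
  refine ⟨fun v hv i => ?_, fun s i h => by rw [rowOp_lsub, hf.2 s i h, map_zero]⟩
  rw [← weight_row]
  refine wh_aeval (fun p : Fin m × τ => if p.1 = i then 1 else 0)
    (fun p : Fin m × σ => if p.1 = i then 1 else 0) _ ?_ ?_ hv
  · intro p
    refine IsWeightedHomogeneous.sum _ _ _ fun c _ => ?_
    exact (wh_X (fun p : Fin m × τ => if p.1 = i then 1 else 0) (p.1, c) rfl).C_mul _
  · intro v hv
    rw [weight_row]
    exact hf.1 v hv i

/-- Derivatives in a set of columns. -/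
lemma tr_lsub [Fintype τ] (A : σ → τ → ℂ) {ι : Type} [Fintype ι] (g : ι → τ)
    (hA : ∀ j, ∑ c : ι, A j (g c) = 0) (i : Fin m)
    (f : MvPolynomial (Fin m × σ) ℂ) : ∑ c : ι, pderiv (i, g c) (lsub m A f) = 0 := by
  classical
  have h := der_comm (lsub m A) (0 : Derivation ℂ (MvPolynomial (Fin m × σ) ℂ) _)
    (∑ c : ι, pderiv (R := ℂ) (i, g c)) (fun p => ?_) f
  · rw [SZR3.der_sum] at h
    rw [h, Derivation.zero_apply, map_zero]
  · rw [Derivation.zero_apply, map_zero, SZR3.der_sum, lsub_X]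
    have h1 : ∀ c : ι, pderiv (i, g c) (∑ c' : τ, C (A p.2 c') * X (p.1, c') :
        MvPolynomial (Fin m × τ) ℂ) = if p.1 = i then C (A p.2 (g c)) else 0 := by
      intro c
      rw [map_sum]
      have h2 : ∀ c' : τ, pderiv (i, g c) (C (A p.2 c') * X (p.1, c') :
          MvPolynomial (Fin m × τ) ℂ) = if (p.1, c') = (i, g c) then C (A p.2 c') else 0 := by
        intro c'
        rw [pderiv_C_mul, SZR3.pderiv_X']
        split_ifs <;> simp
      rw [Finset.sum_congr rfl fun c' _ => h2 c']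
      by_cases hp : p.1 = i
      · simp [hp]
      · simp [hp]
    rw [Finset.sum_congr rfl fun c _ => h1 c]
    by_cases hp : p.1 = i
    · simp only [if_pos hp]
      rw [← map_sum, hA, map_zero]
    · simp [hp]

lemma eval_lsub [Fintype τ] (A : σ → τ → ℂ) (f : MvPolynomial (Fin m × σ) ℂ)
    (x : Fin m × τ → ℂ) :
    eval x (lsub m A f) = eval (fun p => ∑ c, A p.2 c * x (p.1, c)) f := by
  rw [lsub, aeval_def, eval_eval₂, eval, coe_eval₂Hom]
  congr 1
  · ext y
    simp
  · funext p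
    simp

end gen

end Vale.Agent.P181.DG6.H887
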