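import Vale.Agent.P181.DG6.H887.Mk
import Vale.Agent.P181.DG6.H887.Ind
import Vale.Agent.P181.SZR2.Final

set_option autoImplicit false

/-!
# P181, DG (D6): the mark bound
-/

open MvPolynomial

namespace Vale.Agent.P181.DG6.H887

open Vale.Agent.P181.T4 (HW evalP evalP_apply)
open Vale.Agent.P181.SZ (PK nn PT)
open Vale.Agent.P181.SZR2 (zz wh_aeval wh_X eval_aeval' map_get)
open Vale.Agent.P181.SZR4 (vm)
open Vale.Agent.P181.DG

section

variable {m l : ℕ} {α : Type}

/-- Partial evaluation in the large columns. -/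
noncomputable def pe (Y : α → Fin m → ℂ) :
    MvPolynomial (Fin m × (α ⊕ Fin l)) ℂ →ₐ[ℂ] MvPolynomial (Fin m × Fin l) ℂ :=
  aeval (fun p => Sum.elim (fun a => C (Y a p.1)) (fun j => X (p.1, j)) p.2)

lemma evalP_pe (Y : α → Fin m → ℂ) (f : MvPolynomial (Fin m × (α ⊕ Fin l)) ℂ)
    (w : Fin l → Fin m → ℂ) : evalP l m (pe Y f) w = eval (pt Y w) f := by
  rw [evalP_apply, pe, eval_aeval']
  congr 2
  funext p
  obtain ⟨i, j | j⟩ := p
  · exact eval_C _
  · exact eval_X _

lemma col_pe [Fintype α] (Y : α → Fin m → ℂ) {d : α → ℕ} {k : Fin l → ℕ}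
    {f : MvPolynomial (Fin m × (α ⊕ Fin l)) ℂ}
    (hf : ∀ v, coeff v f ≠ 0 → ∀ j, ∑ i, v (i, j) = Sum.elim d k j) :
    ∀ v, coeff v (pe Y f) ≠ 0 → ∀ j, ∑ i, v (i, j) = k j := by
  classical
  intro v hv j
  have h1 := weight_col (m := m) (fun c : Fin l => c = j) v
  rw [Finset.sum_ite_eq' Finset.univ j, if_pos (Finset.mem_univ _)] at h1
  rw [← h1]
  refine wh_aeval (fun p : Fin m × Fin l => if p.2 = j then 1 else 0)
    (fun p : Fin m × (α ⊕ Fin l) => if p.2 = Sum.inr j then 1 else 0) _ ?_ ?_ hv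
  · rintro ⟨i, c | c⟩
    · rw [if_neg (by simp)]
      exact isWeightedHomogeneous_C _ _
    · refine wh_X _ (i, c) ?_
      simp only [Sum.inr.injEq]
  · intro u hu
    rw [weight_col (m := m) (fun c : α ⊕ Fin l => c = Sum.inr j) u,
      Finset.sum_ite_eq' Finset.univ (Sum.inr j : α ⊕ Fin l), if_pos (Finset.mem_univ _)]
    exact hf u hu (Sum.inr j)

lemma sym_pe (Y : α → Fin m → ℂ) {f : MvPolynomial (Fin m × (α ⊕ Fin l)) ℂ}
    (e : Equiv.Perm (Fin l))
    (he : rename (fun p : Fin m × (α ⊕ Fin l) =>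
      (p.1, (Equiv.sumCongr (Equiv.refl α) e) p.2)) f = f) :
    rename (fun p : Fin m × Fin l => (p.1, e p.2)) (pe Y f) = pe Y f := by
  have h6 : ((rename (fun p : Fin m × Fin l => (p.1, e p.2))).comp (pe Y) :
      MvPolynomial (Fin m × (α ⊕ Fin l)) ℂ →ₐ[ℂ] MvPolynomial (Fin m × Fin l) ℂ) =
      (pe Y).comp (rename (fun p : Fin m × (α ⊕ Fin l) =>
        (p.1, (Equiv.sumCongr (Equiv.refl α) e) p.2))) := by
    apply MvPolynomial.algHom_ext
    rintro ⟨i, c | c⟩
    · rw [AlgHom.comp_apply, AlgHom.comp_apply, rename_X, pe, aeval_X, aeval_X]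
      exact rename_C _ _
    · rw [AlgHom.comp_apply, AlgHom.comp_apply, rename_X, pe, aeval_X, aeval_X]
      exact rename_X _ _
  have h7 := congrArg (fun φ => φ f) h6
  simp only [AlgHom.comp_apply] at h7
  rw [h7, he]

end

lemma univ_map (x : ℕ) (k : Multiset ℕ) :
    (Finset.univ : Finset (Unit ⊕ Fin k.toList.length)).val.map
      (Sum.elim (fun _ => x) (fun j => k.toList.get j)) = x ::ₘ k := by
  have h1 : (Finset.univ : Finset (Unit ⊕ Fin k.toList.length)).val =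
      (Finset.univ : Finset Unit).val.map Sum.inl +
        (Finset.univ : Finset (Fin k.toList.length)).val.map Sum.inr := by
    rw [← Finset.univ_disjSum_univ]
    rfl
  rw [h1, Multiset.map_add, Multiset.map_map, Multiset.map_map]
  have h2 : (Sum.elim (fun _ => x) (fun j => k.toList.get j) : Unit ⊕ Fin _ → ℕ) ∘ Sum.inr =
      fun j => k.toList.get j := rfl
  rw [h2, map_get]
  rfl

/-- The column degrees of the type `x ::ₘ k`. -/
noncomputable def dk (x : ℕ) (k : Multiset ℕ) : Unit ⊕ Fin k.toList.length → ℕ :=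
  Sum.elim (fun _ => x) (fun j => k.toList.get j)

/-- The map of one type. -/
noncomputable def Lk (m S t x : ℕ) (mu : Fin m → ℕ) (k : Multiset ℕ) (hS : 1 ≤ S)
    (h : 3 * k.toList.length ≤ t) (hk : ∀ y ∈ k, y < S) :
    PK m (Unit ⊕ Fin k.toList.length) (dk x k) mu →ₗ[ℂ] PKT m S Unit (fun _ => x) t mu :=
  LinearMap.codRestrict _ ((sy m Unit t) ∘ₗ (sb m Unit h).toLinearMap ∘ₗ
    (PK m (Unit ⊕ Fin k.toList.length) (dk x k) mu).subtype) fun f =>
      sy_sb_mem hS h (fun _ => hk _ (Multiset.mem_toList.1 (List.get_mem _ _))) f.2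

lemma coe_Lk {m S t x : ℕ} {mu : Fin m → ℕ} {k : Multiset ℕ} (hS : 1 ≤ S)
    (h : 3 * k.toList.length ≤ t) (hk : ∀ y ∈ k, y < S)
    (f : PK m (Unit ⊕ Fin k.toList.length) (dk x k) mu) :
    ((Lk m S t x mu k hS h hk f : PKT m S Unit (fun _ => x) t mu) :
      MvPolynomial (Fin m × (Unit ⊕ Fin t)) ℂ) = sy m Unit t (sb m Unit h f.1) := rfl

/-- Independence. -/
lemma ker_zero {ι : Type} [Fintype ι] {m t x : ℕ} {mu : Fin m → ℕ} (ty : ι → Multiset ℕ)
    (hty : Function.Injective ty) (h2 : ∀ i, ∀ y ∈ ty i, 2 ≤ y)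
    (hh : ∀ i, 3 * (ty i).toList.length ≤ t)
    (f : ∀ i, MvPolynomial (Fin m × (Unit ⊕ Fin (ty i).toList.length)) ℂ)
    (hf : ∀ i, f i ∈ PK m (Unit ⊕ Fin (ty i).toList.length) (dk x (ty i)) mu)
    (h0 : ∑ i, sy m Unit t (sb m Unit (hh i) (f i)) = 0) : ∀ i, f i = 0 := by
  have h3 : ∀ (Y : Unit → Fin m → ℂ) (i : ι), pe Y (f i) = 0 := by
    intro Y
    refine indep' (b := t) ty hty h2 hh _ (fun i => col_pe Y (hf i).2.1) ?_ ?_
    · intro i e he
      refine sym_pe Y e ((hf i).2.2 _ fun j => ?_)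
      obtain j | j := j
      · rfl
      · exact he j
    · intro w
      have h4 := congrArg (eval (pt Y w)) h0
      rw [map_sum, map_zero] at h4
      rw [← h4]
      refine Finset.sum_congr rfl fun i _ => ?_
      rw [eval_sy_sb]
      exact Finset.sum_congr rfl fun s _ => evalP_pe Y _ _
  intro i
  apply MvPolynomial.funext
  intro p
  have h4 := evalP_pe (fun a r => p (r, Sum.inl a)) (f i) (fun j r => p (r, Sum.inr j))
  rw [h3, map_zero, Pi.zero_apply] at h4
  have h5 : pt (fun a r => p (r, Sum.inl a)) (fun j r => p (r, Sum.inr j)) = p := by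
    funext q
    obtain ⟨r, j | j⟩ := q <;> rfl
  rw [h5] at h4
  rw [← h4]
  exact (map_zero _).symm

/-- **(D6)** for a family of types. -/
theorem mark_gen {ι : Type} [Fintype ι] {m S t x : ℕ} {mu : Fin m → ℕ} (ty : ι → Multiset ℕ)
    (hty : Function.Injective ty) (h2 : ∀ i, ∀ y ∈ ty i, 2 ≤ y) (hS : 1 ≤ S)
    (hk : ∀ i, ∀ y ∈ ty i, y < S) (hh : ∀ i, 3 * (ty i).toList.length ≤ t) :
    ∑ i, Module.finrank ℂ (PK m (Unit ⊕ Fin (ty i).toList.length) (dk x (ty i)) mu) ≤
      Module.finrank ℂ (PKT m S Unit (fun _ => x) t mu) := by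
  let L : (∀ i, PK m (Unit ⊕ Fin (ty i).toList.length) (dk x (ty i)) mu) →ₗ[ℂ]
      PKT m S Unit (fun _ => x) t mu :=
    ∑ i, (Lk m S t x mu (ty i) hS (hh i) (hk i)) ∘ₗ LinearMap.proj i
  have hL : Function.Injective L := by
    rw [← LinearMap.ker_eq_bot, LinearMap.ker_eq_bot']
    intro F hF
    have h1 : ∑ i, sy m Unit t (sb m Unit (hh i) (F i).1) = 0 := by
      have h2 := congrArg (Submodule.subtype (PKT m S Unit (fun _ => x) t mu)) hF
      rw [LinearMap.sum_apply, map_sum, map_zero] at h2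
      exact h2
    have h3 := ker_zero ty hty h2 hh (fun i => (F i).1) (fun i => (F i).2) h1
    funext i
    exact Subtype.ext (h3 i)
  have h9 := LinearMap.finrank_le_finrank_of_injective hL
  rwa [Module.finrank_pi_fintype] at h9

lemma finrank_dk {m x : ℕ} (mu : Fin m → ℕ) {k : Multiset ℕ} (hx : 0 < x)
    (h2 : ∀ y ∈ k, 2 ≤ y) :
    Module.finrank ℂ (PK m (Unit ⊕ Fin k.toList.length) (dk x k) mu) = nn m mu (x ::ₘ k) := by
  rw [SZT0.transS m _ (dk x k) mu]
  congr 1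
  have h1 : (Finset.univ : Finset (Unit ⊕ Fin k.toList.length)).val.map (dk x k) = x ::ₘ k :=
    univ_map x k
  rw [h1, Multiset.filter_eq_self.2]
  intro y hy
  rcases Multiset.mem_cons.1 hy with rfl | hy
  · exact hx
  · have := h2 y hy
    omega

/-- **(D6)** -/
theorem markT : MarkT := by
  classical
  intro m S x t u mu hS hx hmu
  generalize hT : (PT u).filter (fun k => (∀ y ∈ k, y < S) ∧ 3 * Multiset.card k ≤ t) = T
  have hmem : ∀ k ∈ T, (∀ y ∈ k, 2 ≤ y) ∧ (∀ y ∈ k, y < S) ∧ 3 * Multiset.card k ≤ t := by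
    intro k hk
    rw [← hT] at hk
    have h3 := Finset.mem_filter.1 hk
    exact ⟨(Finset.mem_filter.1 h3.1).2, h3.2⟩
  have h9 := mark_gen (m := m) (S := S) (t := t) (x := x) (mu := mu) (ι := {k // k ∈ T})
    Subtype.val Subtype.val_injective (fun k => (hmem k.1 k.2).1) (by omega)
    (fun k => (hmem k.1 k.2).2.1)
    (fun k => by rw [Multiset.length_toList]; exact (hmem k.1 k.2).2.2)
  have h10 := DG0.transT m S Unit (fun _ => x) t mu
  have h11 : (Finset.univ : Finset Unit).val.map (fun _ => x) = {x} := rfl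
  rw [h11] at h10
  rw [← h10]
  refine le_trans (le_of_eq ?_) h9
  have h12 : ∀ k : {k // k ∈ T},
      Module.finrank ℂ (PK m (Unit ⊕ Fin (k.1).toList.length) (dk x k.1) mu) =
        nn m mu (x ::ₘ k.1) := fun k => finrank_dk mu (by omega) (hmem k.1 k.2).1
  rw [Finset.sum_congr rfl fun k _ => h12 k]
  exact (Finset.sum_coe_sort T (fun k => nn m mu (x ::ₘ k))).symm

end Vale.Agent.P181.DG6.H887
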