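import Vale.Agent.P181.DG6.H887.Sub

set_option autoImplicit false

/-!
# P181, DG: each small column becomes `y + y' - 2 y''`
-/

open MvPolynomial

namespace Vale.Agent.P181.DG6.H887

open Vale.Agent.P181.T4 (HW rowOp rowOp_apply mem_HW)
open Vale.Agent.P181.SZ (PK)
open Vale.Agent.P181.SZR2 (pos cf zz)
open Vale.Agent.P181.SZR4 (vm ren_mem_HW vm_injective coeff_ren)
open Vale.Agent.P181.DG
open Vale.Agent.P181.DG0 (mem_PKT)

section

variable {m l t : ℕ} {α : Type} [Fintype α] [DecidableEq α]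

/-- The matrix of the substitution. -/
noncomputable def A3 (α : Type) [DecidableEq α] {l t : ℕ} (h : 3 * l ≤ t) :
    α ⊕ Fin l → α ⊕ Fin t → ℂ
  | Sum.inl a, Sum.inl a' => if a = a' then 1 else 0
  | Sum.inl _, Sum.inr _ => 0
  | Sum.inr _, Sum.inl _ => 0
  | Sum.inr j, Sum.inr c => ∑ s : Fin 3, if c = pos h j s then cf s else 0

omit [Fintype α] in
lemma A3_inr (h : 3 * l ≤ t) (j : Fin l) (c : Fin t) :
    A3 α h (Sum.inr j) (Sum.inr c) = ∑ s : Fin 3, if c = pos h j s then cf s else 0 := rfl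

omit [Fintype α] in
lemma A3_div (h : 3 * l ≤ t) {j : Fin l} {c : Fin t} (hc : A3 α h (Sum.inr j) (Sum.inr c) ≠ 0) :
    (c : ℕ) / 3 = j := by
  rw [A3_inr] at hc
  obtain ⟨s, _, hs⟩ := Finset.exists_ne_zero_of_sum_ne_zero hc
  by_cases h1 : c = pos h j s
  · rw [h1]
    have h2 := s.2
    change (3 * (j : ℕ) + s) / 3 = j
    omega
  · rw [if_neg h1] at hs
    exact absurd rfl hs

omit [Fintype α] in
lemma A3_sum (h : 3 * l ≤ t) (j : α ⊕ Fin l) : ∑ c : Fin t, A3 α h j (Sum.inr c) = 0 := by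
  obtain a | j := j
  · exact Finset.sum_eq_zero fun c _ => rfl
  · simp only [A3_inr]
    rw [Finset.sum_comm]
    simp only [Finset.sum_ite_eq', Finset.mem_univ, if_true]
    rw [Fin.sum_univ_three]
    simp [cf]
    norm_num

/-- The substitution. -/
noncomputable def sb (m : ℕ) (α : Type) [Fintype α] [DecidableEq α] {l t : ℕ} (h : 3 * l ≤ t) :
    MvPolynomial (Fin m × (α ⊕ Fin l)) ℂ →ₐ[ℂ] MvPolynomial (Fin m × (α ⊕ Fin t)) ℂ :=
  lsub m (A3 α h)

/-- The sum over the permutations of the small columns. -/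
noncomputable def sy (m : ℕ) (α : Type) (t : ℕ) :
    MvPolynomial (Fin m × (α ⊕ Fin t)) ℂ →ₗ[ℂ] MvPolynomial (Fin m × (α ⊕ Fin t)) ℂ :=
  ∑ s : Equiv.Perm (Fin t), (rename (vm m (Sum.map (id : α → α) s))).toLinearMap

omit [Fintype α] [DecidableEq α] in
lemma sy_apply (f : MvPolynomial (Fin m × (α ⊕ Fin t)) ℂ) :
    sy m α t f = ∑ s : Equiv.Perm (Fin t), rename (vm m (Sum.map (id : α → α) s)) f := by
  rw [sy, LinearMap.sum_apply]
  rfl

omit [Fintype α] [DecidableEq α] in
lemma map_inj (e : Equiv.Perm α) (s : Equiv.Perm (Fin t)) :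
    Function.Injective (Sum.map e s : α ⊕ Fin t → α ⊕ Fin t) :=
  Sum.map_injective.2 ⟨e.injective, s.injective⟩

omit [Fintype α] [DecidableEq α] in
lemma map_inj' (s : Equiv.Perm (Fin t)) :
    Function.Injective (Sum.map (id : α → α) s : α ⊕ Fin t → α ⊕ Fin t) :=
  Sum.map_injective.2 ⟨Function.injective_id, s.injective⟩

omit [DecidableEq α] in
/-- The symmetrization keeps everything but the symmetry. -/
lemma sy_mem {S : ℕ} {d : α → ℕ} {mu : Fin m → ℕ} {f : MvPolynomial (Fin m × (α ⊕ Fin t)) ℂ}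
    (h1 : f ∈ HW m (α ⊕ Fin t) mu)
    (h2 : ∀ v, coeff v f ≠ 0 → (∀ j : α, ∑ i, v (i, Sum.inl j) = d j) ∧
      ∀ j : Fin t, ∑ i, v (i, Sum.inr j) < S)
    (h3 : ∀ e : Equiv.Perm α, (∀ j, d (e j) = d j) →
      rename (vm m (Sum.map e (id : Fin t → Fin t))) f = f)
    (h4 : ∀ i, ∑ j : Fin t, pderiv (i, (Sum.inr j : α ⊕ Fin t)) f = 0) :
    sy m α t f ∈ PKT m S α d t mu := by
  classical
  rw [mem_PKT, sy_apply]
  refine ⟨Submodule.sum_mem _ fun s _ => ren_mem_HW (map_inj' s) h1, ?_, ?_, ?_⟩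
  · intro v hv
    rw [coeff_sum] at hv
    obtain ⟨s, _, hs⟩ := Finset.exists_ne_zero_of_sum_ne_zero hv
    obtain ⟨u, hu, hu1, _⟩ := coeff_ren (map_inj' s) hs
    obtain ⟨h5, h6⟩ := h2 u hu
    constructor
    · intro j
      rw [← h5 j]
      exact Finset.sum_congr rfl fun i _ => hu1 i (Sum.inl j)
    · intro j
      obtain ⟨k, rfl⟩ := s.surjective j
      have h7 : ∑ i, v (i, Sum.inr (s k)) = ∑ i, u (i, Sum.inr k) :=
        Finset.sum_congr rfl fun i _ => hu1 i (Sum.inr k)
      rw [h7]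
      exact h6 k
  · intro e s he
    change rename (vm m (Sum.map e s)) _ = _
    rw [map_sum]
    have h5 : ∀ s' : Equiv.Perm (Fin t), rename (vm m (Sum.map e s))
        (rename (vm m (Sum.map (id : α → α) s')) f) =
        rename (vm m (Sum.map (id : α → α) (s * s' : Equiv.Perm (Fin t)))) f := by
      intro s'
      conv_rhs => rw [← h3 e he]
      rw [rename_rename, rename_rename]
      congr 2
      funext p
      obtain ⟨i, j | j⟩ := p <;> rfl
    rw [Finset.sum_congr rfl fun s' _ => h5 s']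
    exact Fintype.sum_equiv (Equiv.mulLeft s) _ _ fun s' => rfl
  · intro i
    have h5 : ∀ j : Fin t, pderiv (i, (Sum.inr j : α ⊕ Fin t))
        (∑ s : Equiv.Perm (Fin t), rename (vm m (Sum.map (id : α → α) s)) f) =
        ∑ s : Equiv.Perm (Fin t), rename (vm m (Sum.map (id : α → α) s))
          (pderiv (i, (Sum.inr (s.symm j) : α ⊕ Fin t)) f) := by
      intro j
      rw [map_sum]
      refine Finset.sum_congr rfl fun s _ => ?_
      have h6 := pderiv_rename (vm_injective (m := m) (map_inj' (α := α) s))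
        (i, (Sum.inr (s.symm j) : α ⊕ Fin t)) f
      rw [← h6]
      change _ = pderiv (i, Sum.inr (s (s.symm j))) _
      rw [Equiv.apply_symm_apply]
    rw [Finset.sum_congr rfl fun j _ => h5 j, Finset.sum_comm]
    refine Finset.sum_eq_zero fun s _ => ?_
    rw [← map_sum]
    have h7 : ∑ j : Fin t, pderiv (i, (Sum.inr (s.symm j) : α ⊕ Fin t)) f =
        ∑ j : Fin t, pderiv (i, (Sum.inr j : α ⊕ Fin t)) f :=
      Equiv.sum_comp s.symm (fun j => pderiv (i, (Sum.inr j : α ⊕ Fin t)) f)
    rw [h7, h4 i, map_zero]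

/-- **The polynomial of the mark bound.** -/
theorem sy_sb_mem {S : ℕ} (hS : 1 ≤ S) (h : 3 * l ≤ t) {d : α → ℕ} {k : Fin l → ℕ}
    (hk : ∀ j, k j < S) {mu : Fin m → ℕ} {f : MvPolynomial (Fin m × (α ⊕ Fin l)) ℂ}
    (hf : f ∈ PK m (α ⊕ Fin l) (Sum.elim d k) mu) :
    sy m α t (sb m α h f) ∈ PKT m S α d t mu := by
  classical
  obtain ⟨hf1, hf2, hf3⟩ := hf
  refine sy_mem (lsub_mem_HW _ hf1) ?_ ?_ ?_
  · intro v hv
    constructor
    · intro a
      have h1 := lsub_deg (A3 α h) (fun j => j = Sum.inl a) (fun c => c = Sum.inl a)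
        (n := d a) ?_ ?_ v hv
      · rw [Finset.sum_ite_eq' Finset.univ (Sum.inl a : α ⊕ Fin t)] at h1
        simpa using h1
      · rintro (j | j) (c | c) hc
        · have hjc : j = c := by
            by_contra hne
            exact hc (if_neg hne)
          simp only [Sum.inl.injEq, hjc]
        · exact absurd rfl hc
        · exact absurd rfl hc
        · simp
      · intro u hu
        rw [Finset.sum_ite_eq' Finset.univ (Sum.inl a : α ⊕ Fin l)]
        simpa using hf2 u hu (Sum.inl a)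
    · intro c
      have h1 := lsub_deg (A3 α h)
        (fun j => ∃ q : Fin l, j = Sum.inr q ∧ (q : ℕ) = (c : ℕ) / 3)
        (fun c' => ∃ q : Fin t, c' = Sum.inr q ∧ (q : ℕ) / 3 = (c : ℕ) / 3)
        (n := if hc : (c : ℕ) / 3 < l then k ⟨(c : ℕ) / 3, hc⟩ else 0) ?_ ?_ v hv
      · have h2 : (if hc : (c : ℕ) / 3 < l then k ⟨(c : ℕ) / 3, hc⟩ else 0) < S := by
          split_ifs
          · exact hk _
          · omega
        rw [← h1] at h2
        refine lt_of_le_of_lt ?_ h2
        have h3 := Finset.single_le_sum (f := fun c' : α ⊕ Fin t =>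
          if ∃ q : Fin t, c' = Sum.inr q ∧ (q : ℕ) / 3 = (c : ℕ) / 3 then ∑ i, v (i, c') else 0)
          (fun _ _ => Nat.zero_le _) (Finset.mem_univ (Sum.inr c))
        rw [if_pos ⟨c, rfl, rfl⟩] at h3
        exact h3
      · rintro (j | j) (c' | c') hc
        · simp
        · exact absurd rfl hc
        · exact absurd rfl hc
        · have h2 := A3_div h hc
          constructor
          · rintro ⟨q, hq, hq'⟩
            rw [Sum.inr.injEq] at hq
            subst hq
            exact ⟨j, rfl, by omega⟩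
          · rintro ⟨q, hq, hq'⟩
            rw [Sum.inr.injEq] at hq
            subst hq
            exact ⟨c', rfl, by omega⟩
      · intro u hu
        by_cases hc : (c : ℕ) / 3 < l
        · rw [dif_pos hc, Finset.sum_eq_single (Sum.inr ⟨(c : ℕ) / 3, hc⟩)]
          · rw [if_pos ⟨_, rfl, rfl⟩]
            exact hf2 u hu (Sum.inr _)
          · intro j _ hj
            rw [if_neg]
            rintro ⟨q, hq, hq'⟩
            apply hj
            rw [hq]
            congr 1
            exact Fin.ext hq'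
          · intro h'
            exact absurd (Finset.mem_univ _) h'
        · rw [dif_neg hc]
          refine Finset.sum_eq_zero fun j _ => ?_
          rw [if_neg]
          rintro ⟨q, hq, hq'⟩
          have := q.2
          omega
  · intro e he
    have h5 : ∀ p : Fin m × (α ⊕ Fin l), rename (vm m (Sum.map e (id : Fin t → Fin t)))
        (sb m α h (X p)) = sb m α h (rename (vm m (Sum.map e (id : Fin l → Fin l))) (X p)) := by
      intro p
      rw [rename_X, sb, lsub_X, lsub_X, map_sum]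
      refine Fintype.sum_equiv (Equiv.sumCongr e (Equiv.refl (Fin t))) _ _ fun c => ?_
      rw [map_mul, rename_C, rename_X]
      obtain ⟨i, j | j⟩ := p <;> obtain c | c := c
      · change C (if j = c then 1 else 0) * X (i, Sum.inl (e c)) =
          C (if e j = e c then 1 else 0) * X (i, Sum.inl (e c))
        simp only [EmbeddingLike.apply_eq_iff_eq]
      · rfl
      · rfl
      · rfl
    have h6 : ((rename (vm m (Sum.map e (id : Fin t → Fin t)))).comp (sb m α h)) =
        (sb m α h).comp (rename (vm m (Sum.map e (id : Fin l → Fin l)))) :=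
      MvPolynomial.algHom_ext fun p => h5 p
    have h7 := congrArg (fun φ => φ f) h6
    simp only [AlgHom.comp_apply] at h7
    rw [h7]
    congr 1
    have h8 := hf3 (Equiv.sumCongr e (Equiv.refl (Fin l))) (fun j => by
      obtain j | j := j
      · exact he j
      · rfl)
    exact h8
  · intro i
    exact tr_lsub (A3 α h) (fun c : Fin t => Sum.inr c) (A3_sum h) i f

omit [DecidableEq α] [Fintype α] in
lemma eval_sy (f : MvPolynomial (Fin m × (α ⊕ Fin t)) ℂ) (x : Fin m × (α ⊕ Fin t) → ℂ) :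
    eval x (sy m α t f) =
      ∑ s : Equiv.Perm (Fin t), eval (fun p => x (p.1, Sum.map (id : α → α) s p.2)) f := by
  rw [sy_apply, map_sum]
  refine Finset.sum_congr rfl fun s _ => ?_
  rw [eval_rename]
  rfl

/-- The point with large columns `Y` and small columns `w`. -/
def pt (Y : α → Fin m → ℂ) (w : Fin t → Fin m → ℂ) : Fin m × (α ⊕ Fin t) → ℂ :=
  fun p => Sum.elim Y w p.2 p.1

lemma eval_sb (h : 3 * l ≤ t) (f : MvPolynomial (Fin m × (α ⊕ Fin l)) ℂ)
    (Y : α → Fin m → ℂ) (w : Fin t → Fin m → ℂ) :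
    eval (pt Y w) (sb m α h f) = eval (pt Y (zz h w)) f := by
  rw [sb, eval_lsub]
  congr 2
  funext p
  obtain ⟨i, j | j⟩ := p
  · rw [Fintype.sum_sum_type]
    change ∑ a, (if j = a then (1 : ℂ) else 0) * Y a i + ∑ c : Fin t, (0 : ℂ) * w c i = Y j i
    simp
  · rw [Fintype.sum_sum_type]
    change ∑ a, (0 : ℂ) * Y a i + ∑ c : Fin t, A3 α h (Sum.inr j) (Sum.inr c) * w c i =
      zz h w j i
    simp only [zero_mul, Finset.sum_const_zero, zero_add, A3_inr, Finset.sum_mul, zz,
      Finset.sum_apply, Pi.smul_apply, smul_eq_mul]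
    rw [Finset.sum_comm]
    refine Finset.sum_congr rfl fun s _ => ?_
    simp only [ite_mul, zero_mul, Finset.sum_ite_eq', Finset.mem_univ, if_true]

/-- The values of the polynomial of the mark bound. -/
theorem eval_sy_sb (h : 3 * l ≤ t) (f : MvPolynomial (Fin m × (α ⊕ Fin l)) ℂ)
    (Y : α → Fin m → ℂ) (w : Fin t → Fin m → ℂ) :
    eval (pt Y w) (sy m α t (sb m α h f)) =
      ∑ s : Equiv.Perm (Fin t), eval (pt Y (zz h fun c => w (s c))) f := by
  rw [eval_sy]
  refine Finset.sum_congr rfl fun s _ => ?_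
  rw [← eval_sb h f Y (fun c => w (s c))]
  congr 2
  funext p
  obtain ⟨i, j | j⟩ := p <;> rfl

end

end Vale.Agent.P181.DG6.H887
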